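import Vale.Agent.P040.Wind

namespace Vale.Agent.P039

universe u

open Complex unitInterval Vale.Agent.P040

theorem exists_Th : ∃ Th : (I → ℂ) → ℂ, ∀ γ : I → ℂ, Continuous γ → (∀ s, γ s ≠ 0) →
    (exp (Th γ) * γ 0 = γ 1) ∧
      ∀ (M : I → ℂ) (c : ℂ), Continuous M → (∀ s, exp (M s + c) = γ s) → Th γ = M 1 - M 0 := by
  have : ∀ γ : I → ℂ, ∃ θ : ℂ, Continuous γ → (∀ s, γ s ≠ 0) → (exp θ * γ 0 = γ 1) ∧
      ∀ (M : I → ℂ) (c : ℂ), Continuous M → (∀ s, exp (M s + c) = γ s) → θ = M 1 - M 0 := by
    intro γ
    by_cases hc : Continuous γ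
    · obtain ⟨θ, hθ⟩ := exists_theta γ hc 0
      exact ⟨θ, fun _ h => by simpa using hθ h⟩
    · exact ⟨0, fun h => absurd h hc⟩
  choose Th hTh using this
  exact ⟨Th, hTh⟩

noncomputable def half : I := ⟨1 / 2, by norm_num, by norm_num⟩

noncomputable def lo (t : I) : I := ⟨t / 2, by have := t.2.1; positivity, by
  have := t.2.2; linarith⟩

noncomputable def hi (t : I) : I := ⟨(1 + t) / 2, by have := t.2.1; positivity, by
  have := t.2.2; linarith⟩

noncomputable def rr (p : I × I) : I := max p.1 (Set.projIcc 0 1 zero_le_one (1 / 2 - p.2))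

theorem lo_cont : Continuous lo := by unfold lo; fun_prop
theorem hi_cont : Continuous hi := by unfold hi; fun_prop
theorem rr_cont : Continuous rr := by
  unfold rr
  exact continuous_fst.max (continuous_projIcc.comp (by fun_prop))
theorem lo_zero : lo 0 = 0 := by apply Subtype.ext; simp [lo]
theorem lo_one : lo 1 = half := by apply Subtype.ext; simp [lo, half]
theorem hi_zero : hi 0 = half := by apply Subtype.ext; simp [hi, half]
theorem hi_one : hi 1 = 1 := by apply Subtype.ext; simp [hi]
theorem half_ne_zero : half ≠ 0 := by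
  intro h; have := congrArg Subtype.val h; simp [half] at this
theorem half_ne_one : half ≠ 1 := by
  intro h; have := congrArg Subtype.val h; norm_num [half] at this
theorem symm_half : σ half = half := by apply Subtype.ext; norm_num [half]
theorem lo_ne_one (t : I) : lo t ≠ 1 := by
  intro h; have := congrArg Subtype.val h; have h2 := t.2.2; simp [lo] at this; linarith
theorem hi_ne_zero (t : I) : hi t ≠ 0 := by
  intro h; have := congrArg Subtype.val h; have h2 := t.2.1; simp [hi] at this; linarith

theorem rr_eq (s t : I) (h : (1 / 2 : ℝ) ≤ s + t) : rr (s, t) = s := by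
  unfold rr
  apply max_eq_left
  rw [← Subtype.coe_le_coe, Set.coe_projIcc]
  have := s.2.1
  refine max_le this ((min_le_right _ _).trans ?_)
  simp only
  linarith

theorem rr_zero (s : I) : rr (s, 0) ≠ 0 := by
  intro h
  have h1 : Set.projIcc (0 : ℝ) 1 zero_le_one (1 / 2 - ((0 : I) : ℝ)) ≤ rr (s, 0) :=
    le_max_right _ _
  rw [h, ← Subtype.coe_le_coe, Set.coe_projIcc] at h1
  norm_num at h1

theorem exists_int_log (A z : ℂ) : ∃ j : ℤ, z ≠ 0 → exp A = z →
    A = log z + j * (2 * Real.pi * Complex.I) := by
  by_cases h : z ≠ 0 ∧ exp A = z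
  · obtain ⟨j, hj⟩ := exp_eq_exp_iff_exists_int.1 (h.2.trans (exp_log h.1).symm)
    exact ⟨j, fun _ _ => hj⟩
  · exact ⟨0, fun h1 h2 => absurd ⟨h1, h2⟩ h⟩

/-- the local computation for two arcs leaving the same point -/
theorem pair_local (Th : (I → ℂ) → ℂ)
    (hTh : ∀ γ : I → ℂ, Continuous γ → (∀ s, γ s ≠ 0) → (exp (Th γ) * γ 0 = γ 1) ∧
      ∀ (M : I → ℂ) (c : ℂ), Continuous M → (∀ s, exp (M s + c) = γ s) → Th γ = M 1 - M 0)
    (a b : I → ℂ) (ha : Continuous a) (hb : Continuous b) (h0 : a 0 = b 0)
    (hne : ∀ s t, a s = b t → s = 0 ∧ t = 0) :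
    (Th (fun s => a s - b half) - Th (fun t => a 1 - b (lo t)) - Th (fun t => b (hi t) - b 0)) +
      (Th (fun s => b s - a half) - Th (fun t => b 1 - a (lo t)) -
        Th (fun t => a (hi t) - a 0)) = 0 := by
  have hl := lo_cont
  have hh := hi_cont
  have hr := rr_cont
  obtain ⟨H, hH, hH'⟩ := exists_log_square (fun p => a (rr p) - b p.2) (by fun_prop) (by
    intro p hp
    obtain ⟨h1, h2⟩ := hne _ _ (sub_eq_zero.1 hp)
    apply rr_zero p.1
    have h3 : p = (p.1, 0) := Prod.ext rfl h2
    rw [← h3]
    exact h1)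
  have hE : ∀ s t : I, (1 / 2 : ℝ) ≤ s + t → exp (H (s, t)) = a s - b t := by
    intro s t h
    rw [hH', rr_eq s t h]
  have hE' : ∀ s t : I, (1 / 2 : ℝ) ≤ s + t →
      exp (H (s, t) + Real.pi * Complex.I) = b t - a s := by
    intro s t h
    rw [exp_add, hE s t h, exp_pi_mul_I]
    ring
  have n1 : ∀ s t, s ≠ 0 ∨ t ≠ 0 → a s - b t ≠ 0 := by
    intro s t h h1
    have := hne _ _ (sub_eq_zero.1 h1)
    tauto
  have n2 : ∀ s t, s ≠ 0 ∨ t ≠ 0 → b t - a s ≠ 0 := by
    intro s t h h1
    have := hne _ _ (sub_eq_zero.1 h1).symm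
    tauto
  have c1 : ((half : I) : ℝ) = 1 / 2 := rfl
  have c2 : ∀ t : I, (1 / 2 : ℝ) ≤ hi t := by
    intro t; have := t.2.1; simp only [hi]; linarith
  have t1 := (hTh (fun s => a s - b half) (by fun_prop)
    (fun s => n1 _ _ (Or.inr half_ne_zero))).2 (fun s => H (s, half)) 0 (by fun_prop)
    (fun s => by rw [add_zero, hE]; have := s.2.1; linarith)
  have t2 := (hTh (fun t => a 1 - b (lo t)) (by fun_prop)
    (fun s => n1 _ _ (Or.inl one_ne_zero))).2 (fun s => H (1, lo s)) 0 (by fun_prop)
    (fun s => by rw [add_zero, hE]; have := (lo s).2.1; simp only [Set.Icc.coe_one]; linarith)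
  have t3 := (hTh (fun t => b (hi t) - b 0) (by fun_prop)
    (fun s => by rw [← h0]; exact n2 _ _ (Or.inr (hi_ne_zero s)))).2 (fun s => H (0, hi s))
    (Real.pi * Complex.I) (by fun_prop)
    (fun s => by rw [hE', h0]; have := c2 s; simp only [Set.Icc.coe_zero]; linarith)
  have t4 := (hTh (fun s => b s - a half) (by fun_prop)
    (fun s => n2 _ _ (Or.inl half_ne_zero))).2 (fun s => H (half, s))
    (Real.pi * Complex.I) (by fun_prop)
    (fun s => by rw [hE']; have := s.2.1; linarith)
  have t5 := (hTh (fun t => b 1 - a (lo t)) (by fun_prop)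
    (fun s => n2 _ _ (Or.inr one_ne_zero))).2 (fun s => H (lo s, 1))
    (Real.pi * Complex.I) (by fun_prop)
    (fun s => by rw [hE']; have := (lo s).2.1; simp only [Set.Icc.coe_one]; linarith)
  have t6 := (hTh (fun t => a (hi t) - a 0) (by fun_prop)
    (fun s => by rw [h0]; exact n1 _ _ (Or.inl (hi_ne_zero s)))).2 (fun s => H (hi s, 0)) 0
    (by fun_prop)
    (fun s => by rw [add_zero, hE, h0]; have := c2 s; simp only [Set.Icc.coe_zero]; linarith)
  rw [t1, t2, t3, t4, t5, t6]
  simp only [lo_zero, lo_one, hi_zero, hi_one]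
  ring

theorem topo {E X : Type u} (bl wh : E → X) (hbw : ∀ e f, bl e ≠ wh f)
    (hsimple : ∀ e f, bl e = bl f → wh e = wh f → e = f)
    (pos : X → ℂ) (hpos : Function.Injective pos) (γ : E → I → ℂ) (hc : ∀ e, Continuous (γ e))
    (h0 : ∀ e, γ e 0 = pos (bl e)) (h1 : ∀ e, γ e 1 = pos (wh e))
    (hav : ∀ e t x, t ≠ 0 → t ≠ 1 → γ e t ≠ pos x)
    (hdis : ∀ e f s t, e ≠ f → s ≠ 0 → s ≠ 1 → t ≠ 0 → t ≠ 1 → γ e s ≠ γ f t) :
    ∃ (K : E → E → ZMod 2) (kk : X → E → E → ZMod 2) (Rr : X → E → ZMod 2),
      (∀ x e f, e ≠ f → (bl e = x ∨ wh e = x) → (bl f = x ∨ wh f = x) →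
        kk x e f + kk x f e = 1) ∧
      (∀ x f, (bl f = x ∨ wh f = x) → ∃ j : X → ZMod 2, ∀ e, e ≠ f →
        ((bl e = x ∨ wh e = x) → K e f = kk x e f + j (bl e) + j (wh e)) ∧
        (¬ (bl e = x ∨ wh e = x) → K e f = Rr x e + j (bl e) + j (wh e))) := by
  classical
  obtain ⟨Th, hTh⟩ := exists_Th
  have hl := lo_cont
  have hh := hi_cont
  have h2 : (2 : ZMod 2) = 0 := rfl
  choose k hk using fun e p => exists_k (Th (fun s => γ e s - p)) (pos (bl e)) (pos (wh e)) p
  have hk' : ∀ e p, (∀ s, γ e s ≠ p) → Th (fun s => γ e s - p) =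
      log (pos (wh e) - p) - log (pos (bl e) - p) + k e p * (2 * Real.pi * Complex.I) := by
    intro e p hp
    refine hk e p (h0 e ▸ hp 0) (h1 e ▸ hp 1) ?_
    have := (hTh (fun s => γ e s - p) (by have := hc e; fun_prop)
      (fun s => sub_ne_zero.2 (hp s))).1
    simpa [h0, h1] using this
  obtain ⟨δ, hδ⟩ : ∃ δ : X → E → I → ℂ,
      δ = fun x f t => if bl f = x then γ f t else γ f (σ t) := ⟨_, rfl⟩
  obtain ⟨ot, hot⟩ : ∃ ot : X → E → X,
      ot = fun x f => if bl f = x then wh f else bl f := ⟨_, rfl⟩
  have δc : ∀ x f, Continuous (δ x f) := by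
    intro x f
    have := hc f
    by_cases h : bl f = x
    · simp only [hδ, h, if_true]; exact this
    · simp only [hδ, h, if_false]; fun_prop
  have δ0 : ∀ x f, (bl f = x ∨ wh f = x) → δ x f 0 = pos x := by
    intro x f h
    by_cases h' : bl f = x
    · simp [hδ, h', h0]
    · simp [hδ, h', h1, h.resolve_left h']
  have δ1 : ∀ x f, δ x f 1 = pos (ot x f) := by
    intro x f
    by_cases h' : bl f = x
    · simp [hδ, hot, h', h1]
    · simp [hδ, hot, h', h0]
  have δh : ∀ x f, δ x f half = γ f half := by
    intro x f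
    by_cases h' : bl f = x
    · simp [hδ, h']
    · simp [hδ, h', symm_half]
  have δi : ∀ x f t, t ≠ 0 → t ≠ 1 → ∃ t', t' ≠ 0 ∧ t' ≠ 1 ∧ δ x f t = γ f t' := by
    intro x f t a b
    by_cases h' : bl f = x
    · exact ⟨t, a, b, by simp [hδ, h']⟩
    · refine ⟨σ t, fun h => b (by simpa using congrArg σ h),
        fun h => a (by simpa using congrArg σ h), by simp [hδ, h']⟩
  have otne : ∀ x f, (bl f = x ∨ wh f = x) → ot x f ≠ x := by
    intro x f h
    by_cases h' : bl f = x
    · simp only [hot, h', if_true]; rw [← h']; exact (hbw f f).symm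
    · simp only [hot, h', if_false]; exact h'
  have δv : ∀ x f t y, (bl f = x ∨ wh f = x) → δ x f t = pos y →
      (t = 0 ∧ y = x) ∨ (t = 1 ∧ y = ot x f) := by
    intro x f t y h h'
    by_cases a : t = 0
    · rw [a, δ0 x f h] at h'
      exact Or.inl ⟨a, (hpos h').symm⟩
    by_cases b : t = 1
    · rw [b, δ1] at h'
      exact Or.inr ⟨b, (hpos h').symm⟩
    obtain ⟨t', a', b', h''⟩ := δi x f t a b
    exact absurd (h''.symm.trans h') (hav f t' y a' b')
  have γmid : ∀ e f s, e ≠ f → γ e s ≠ γ f half := by
    intro e f s hef h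
    by_cases a : s = 0
    · rw [a, h0] at h
      exact hav f half _ half_ne_zero half_ne_one h.symm
    by_cases b : s = 1
    · rw [b, h1] at h
      exact hav f half _ half_ne_zero half_ne_one h.symm
    exact hdis e f s half hef a b half_ne_zero half_ne_one h
  obtain ⟨A, hA⟩ : ∃ A : X → E → X → ℂ, A = fun x f y =>
      if y = x then log (pos (ot x f) - pos x) - Th (fun t => δ x f (hi t) - pos x) +
        Real.pi * Complex.I
      else log (pos y - pos x) + Th (fun t => pos y - δ x f (lo t)) := ⟨_, rfl⟩
  choose jz hjz using fun x f y => exists_int_log (A x f y) (pos y - γ f half)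
  have hjz' : ∀ x f y, (bl f = x ∨ wh f = x) →
      A x f y = log (pos y - γ f half) + jz x f y * (2 * Real.pi * Complex.I) := by
    intro x f y h
    have := δc x f
    refine hjz x f y (sub_ne_zero.2 (hav f half y half_ne_zero half_ne_one).symm) ?_
    by_cases hy : y = x
    · have e1 := (hTh (fun t => δ x f (hi t) - pos x) (by fun_prop) (fun t => by
        refine sub_ne_zero.2 fun h' => ?_
        rcases δv x f _ _ h h' with h3 | h3
        · exact hi_ne_zero t h3.1
        · exact otne x f h h3.2.symm)).1
      simp only [hi_zero, hi_one, δh, δ1] at e1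
      simp only [hA, hy, if_true]
      rw [exp_add, exp_sub, exp_pi_mul_I,
        exp_log (sub_ne_zero.2 fun h' => otne x f h (hpos h')), ← e1]
      field_simp
      ring
    · have e1 := (hTh (fun t => pos y - δ x f (lo t)) (by fun_prop) (fun t => by
        refine sub_ne_zero.2 fun h' => ?_
        rcases δv x f _ _ h h'.symm with h3 | h3
        · exact hy h3.2
        · exact lo_ne_one t h3.1)).1
      simp only [lo_zero, lo_one, δh, δ0 x f h] at e1
      simp only [hA, hy, if_false]
      rw [exp_add, exp_log (sub_ne_zero.2 fun h' => hy (hpos h')), ← e1]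
      ring
  refine ⟨fun e f => (k e (γ f half) : ZMod 2),
    fun x e f => (k e (γ f half) : ZMod 2) + (jz x f (bl e) : ZMod 2) + (jz x f (wh e) : ZMod 2),
    fun x e => (k e (pos x) : ZMod 2), ?_, ?_⟩
  · have key : ∀ x e f, e ≠ f → (bl e = x ∨ wh e = x) → (bl f = x ∨ wh f = x) → ∃ n : ℤ,
        (n : ZMod 2) = (k e (γ f half) : ZMod 2) + (jz x f (bl e) : ZMod 2) +
          (jz x f (wh e) : ZMod 2) ∧
        n * (2 * Real.pi * Complex.I) = Th (fun s => δ x e s - δ x f half) -
          (log (pos (ot x e) - pos x) + Th (fun t => δ x e 1 - δ x f (lo t))) +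
          (log (pos (ot x f) - pos x) - Th (fun t => δ x f (hi t) - δ x f 0) +
            Real.pi * Complex.I) := by
      intro x e f hef he hf
      have e1 := hk' e (γ f half) (fun s => γmid e f s hef)
      have e2 := hjz' x f x hf
      have e3 := hjz' x f (ot x e) hf
      simp only [hA, if_true] at e2
      simp only [hA, otne x e he, if_false] at e3
      rw [δh, δ1, δ0 x f hf]
      by_cases h' : bl e = x
      · have a1 : δ x e = γ e := by funext t; simp [hδ, h']
        have a2 : ot x e = wh e := by simp [hot, h']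
        refine ⟨k e (γ f half) - jz x f (wh e) + jz x f x, ?_, ?_⟩
        · push_cast
          rw [h']
          linear_combination (-(jz x f (wh e) : ZMod 2)) * h2
        · rw [a2] at e3
          rw [a1, a2]
          rw [h'] at e1
          push_cast
          linear_combination e3 - e1 - e2
      · have a0 : wh e = x := he.resolve_left h'
        have a1 : δ x e = fun t => γ e (σ t) := by funext t; simp [hδ, h']
        have a2 : ot x e = bl e := by simp [hot, h']
        have hce := hc e
        obtain ⟨L, hL, hL'⟩ := exists_log_path (fun s => γ e s - γ f half) (by fun_prop)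
          (fun s => sub_ne_zero.2 (γmid e f s hef))
        have b1 := (hTh (fun s => γ e s - γ f half) (by fun_prop)
          (fun s => sub_ne_zero.2 (γmid e f s hef))).2 L 0 hL (fun s => by rw [add_zero, hL'])
        have b2 := (hTh (fun s => γ e (σ s) - γ f half) (by fun_prop)
          (fun s => sub_ne_zero.2 (γmid e f _ hef))).2 (fun s => L (σ s)) 0 (by fun_prop)
          (fun s => by rw [add_zero, hL'])
        simp only [symm_one, symm_zero] at b2
        refine ⟨-k e (γ f half) - jz x f (bl e) + jz x f x, ?_, ?_⟩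
        · push_cast
          rw [a0]
          linear_combination (-(jz x f (bl e) : ZMod 2) - (k e (γ f half) : ZMod 2)) * h2
        · rw [a2] at e3
          rw [a1, a2]
          rw [a0] at e1
          push_cast
          linear_combination e3 + e1 - e2 - b1 - b2
    intro x e f hef he hf
    obtain ⟨n, hn, hn'⟩ := key x e f hef he hf
    obtain ⟨m, hm, hm'⟩ := key x f e hef.symm hf he
    have hp := pair_local Th hTh (δ x e) (δ x f) (δc x e) (δc x f)
      ((δ0 x e he).trans (δ0 x f hf).symm) (by
        intro s t h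
        have hoo : ot x e ≠ ot x f := by
          intro h3
          apply hef
          by_cases a : bl e = x
          · have b : bl f = x := hf.resolve_right fun b => hbw e f (a.trans b.symm)
            exact hsimple e f (a.trans b.symm) (by simpa [hot, a, b] using h3)
          · have a' := he.resolve_left a
            have b : ¬ bl f = x := fun b => hbw f e (b.trans a'.symm)
            exact hsimple e f (by simpa [hot, a, b] using h3)
              (a'.trans (hf.resolve_left b).symm)
        by_cases a : t = 0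
        · rw [a, δ0 x f hf] at h
          rcases δv x e s x he h with h3 | h3
          · exact ⟨h3.1, a⟩
          · exact absurd h3.2.symm (otne x e he)
        by_cases b : t = 1
        · rw [b, δ1] at h
          rcases δv x e s _ he h with h3 | h3
          · exact absurd h3.2 (otne x f hf)
          · exact absurd h3.2.symm hoo
        obtain ⟨t', a', b', h''⟩ := δi x f t a b
        rw [h''] at h
        by_cases c : s = 0
        · rw [c, δ0 x e he] at h
          exact absurd h.symm (hav f t' _ a' b')
        by_cases d : s = 1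
        · rw [d, δ1] at h
          exact absurd h.symm (hav f t' _ a' b')
        obtain ⟨s', c', d', h3⟩ := δi x e s c d
        rw [h3] at h
        exact absurd h (hdis e f s' t' hef c' d' a' b'))
    have : n + m - 1 = 0 := by
      apply int_of_mul_tau
      push_cast
      linear_combination hn' + hm' + hp
    have h3 := congrArg (Int.cast : ℤ → ZMod 2) this
    push_cast at h3
    simp only
    rw [← hn, ← hm]
    linear_combination h3
  · intro x f hf
    refine ⟨fun y => (jz x f y : ZMod 2), fun e hef => ⟨fun _ => ?_, fun he => ?_⟩⟩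
    · simp only
      linear_combination (-(jz x f (bl e) : ZMod 2) - (jz x f (wh e) : ZMod 2)) * h2
    · have hce := hc e
      have hcf := δc x f
      have a1 : bl e ≠ x := fun h => he (Or.inl h)
      have a2 : wh e ≠ x := fun h => he (Or.inr h)
      have nz : ∀ s t, γ e s ≠ δ x f (lo t) := by
        intro s t h
        by_cases a : s = 0
        · rw [a, h0] at h
          rcases δv x f _ _ hf h.symm with h3 | h3
          · exact a1 h3.2
          · exact lo_ne_one t h3.1
        by_cases b : s = 1
        · rw [b, h1] at h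
          rcases δv x f _ _ hf h.symm with h3 | h3
          · exact a2 h3.2
          · exact lo_ne_one t h3.1
        by_cases c : lo t = 0
        · rw [c, δ0 x f hf] at h
          exact hav e s x a b h
        obtain ⟨t', c', d', h3⟩ := δi x f (lo t) c (lo_ne_one t)
        rw [h3] at h
        exact hdis e f s t' hef a b c' d' h
      obtain ⟨H, hH, hH'⟩ := exists_log_square (fun p => γ e p.1 - δ x f (lo p.2)) (by fun_prop)
        (fun p => sub_ne_zero.2 (nz _ _))
      have nx : ∀ s, γ e s ≠ pos x := by
        intro s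
        have := nz s 0
        rwa [lo_zero, δ0 x f hf] at this
      have e1 := hk' e (γ f half) (fun s => γmid e f s hef)
      have e2 := hk' e (pos x) nx
      have e3 := hjz' x f (bl e) hf
      have e4 := hjz' x f (wh e) hf
      simp only [hA, a1, a2, if_false] at e3 e4
      have t1 := (hTh (fun s => γ e s - γ f half) (by fun_prop)
        (fun s => sub_ne_zero.2 (γmid e f s hef))).2 (fun s => H (s, 1)) 0 (by fun_prop)
        (fun s => by rw [add_zero, hH', lo_one, δh])
      have t2 := (hTh (fun s => γ e s - pos x) (by fun_prop)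
        (fun s => sub_ne_zero.2 (nx s))).2 (fun s => H (s, 0)) 0 (by fun_prop)
        (fun s => by rw [add_zero, hH', lo_zero, δ0 x f hf])
      have t3 := (hTh (fun t => pos (bl e) - δ x f (lo t)) (by fun_prop)
        (fun s => sub_ne_zero.2 (h0 e ▸ nz 0 s))).2 (fun s => H (0, s)) 0 (by fun_prop)
        (fun s => by rw [add_zero, hH', h0])
      have t4 := (hTh (fun t => pos (wh e) - δ x f (lo t)) (by fun_prop)
        (fun s => sub_ne_zero.2 (h1 e ▸ nz 1 s))).2 (fun s => H (1, s)) 0 (by fun_prop)
        (fun s => by rw [add_zero, hH', h1])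
      have : k e (γ f half) - k e (pos x) + jz x f (bl e) - jz x f (wh e) = 0 := by
        apply int_of_mul_tau
        push_cast
        linear_combination e2 - e1 - e3 + e4 + t1 - t2 + t3 - t4
      have h3 := congrArg (Int.cast : ℤ → ZMod 2) this
      push_cast at h3
      simp only
      linear_combination h3 + (-(jz x f (bl e) : ZMod 2)) * h2

end Vale.Agent.P039
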